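import Vale.Agent.P354KG.Pre

/-!
KGL: the gluing in the Kruskal chart.
-/

set_option maxSynthPendingDepth 3

open scoped ContDiff
open Set Filter Topology

noncomputable section

namespace Vale.Agent.P354KG

open Vale.Agent.P354n (R4)
open Vale.Agent.P354I (X Dat rm rp Sg ee)
open Vale.Agent.P354R (Met Pull chr)
open Vale.Agent.P354RC (surj_of_inj)
open Vale.Agent.P354XE
open Vale.Agent.P354XV (Lv In0)
open Vale.Agent.P354YR
open Vale.Agent.P354YO (pb_congr met_comb met_comb' met_cont met_smul)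
open Vale.Agent.P354YA (La Core Agr)
open Vale.Agent.P354YI (ex Eg KGL vd lv_vd in0_congr bd_zero)

/-- The glued metric. -/
def G0 (M a θ1 : ℝ) (g : Tw) (gc : Bool → Tw) : Tw := fun x =>
  if 11 / 10 * θ1 ≤ ev M a true x then pb (ci M a true) (gc true) x
  else if 11 / 10 * θ1 ≤ ev M a false x then pb (ci M a false) (gc false) x else g x

/-- The hypotheses of the gluing. -/
structure Hy (M a r1 θ θ1 κ : ℝ) (d : Dat) (g : Tw) (D : Set R4) (gc : Bool → Tw) : Prop where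
  ha : a ≠ 0
  h : |a| < M
  h1 : rm M a < r1
  h1' : r1 < rp M a
  h0 : 0 < θ
  h2 : 2 * θ ≤ θ1
  big : rp M a - r1 ≤ θ * θ1 * mf M a r1 ^ 2
  lv : Lv g D
  sub : Kc M a r1 θ1 ⊆ D
  tl : ∀ x ∈ Kc M a r1 θ1, g x (XK M a x) (XK M a x) < 0
  sp : ∀ x ∈ Kc M a r1 θ, ∀ v ≠ 0, v.1 = 0 → 0 < g x v v
  ind : ∀ y, pt 0 y ∈ Kc M a r1 θ1 → In0 g d y
  eg : ∀ σ, Eg M a r1 θ θ1 κ σ d g (gc σ)
  mar : ∀ p, r1 < rd p → gin M a p (XI M a p) (XI M a p) + κ * (‖XI M a p‖ * ‖XI M a p‖) < 0 ∧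
    ∀ v : R4, v.1 = 0 → κ * (‖v‖ * ‖v‖) ≤ gin M a p v v
  tm : ∀ x ∈ Bx M a r1 θ, Tm (gK M a) (XK M a) (fun p => p.1) x

variable {M a r1 θ θ1 κ : ℝ} {d : Dat} {g : Tw} {D : Set R4} {gc : Bool → Tw} {σ : Bool}
  {p x : R4} {y : X}

namespace Hy

variable (H : Hy M a r1 θ θ1 κ d g D gc)
include H

theorem le1 : θ ≤ θ1 := by linarith [H.h0, H.h2]
theorem pos1 : 0 < θ1 := H.h0.trans_le H.le1
theorem dk (hx : x ∈ Bx M a r1 θ1) : x ∈ DK M a := D0_sub H.h1.le hx.1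
theorem di (hp : p ∈ La M a r1 θ θ1) : p ∈ DI M a := H.h1.trans hp.1.1
theorem key (hx : x ∈ Bx M a r1 θ1) (e : θ ≤ ev M a σ x) :
    (∃ p ∈ La M a r1 θ θ1, ch M a σ p = x) ∧ ev M a (!σ) x < θ1 :=
  P354KG.key H.ha H.h H.h1 H.h0 H.le1 H.big hx e

theorem ev_la (hp : p ∈ La M a r1 θ θ1) : θ ≤ ev M a σ (ch M a σ p) :=
  (ev_ch H.ha H.h (H.di hp)).symm ▸ hp.1.2.1

/-- On the overlap, the metric of the end is g. -/
theorem ovl (hp : p ∈ La M a r1 θ θ1) (e : ev M a σ (ch M a σ p) ≤ 6 / 5 * θ1) :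
    pb (ci M a σ) (gc σ) =ᶠ[𝓝 (ch M a σ p)] g := by
  have c := isCh H.h σ
  have m := c.maps (H.di hp)
  have l := c.left p (H.di hp)
  refine (pb_congr (ci_cd H.h m).continuousAt (l.symm ▸ (H.eg σ).eq p hp
    (ev_ch H.ha H.h (H.di hp) ▸ e))).trans (pb_inv g (ci_cd H.h m) (l.symm ▸ ch_cd H.h (H.di hp))
      (mem_of_superset ((open_DE σ).mem_nhds m) c.right))

theorem g1 (hp : p ∈ La M a r1 θ θ1) :
    G0 M a θ1 g gc =ᶠ[𝓝 (ch M a σ p)] pb (ci M a σ) (gc σ) := by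
  have hx := la_bx (σ := σ) H.h hp
  have k := (ev_cont (H.dk hx)).eventually_lt continuousAt_const
    ((H.key hx (H.ev_la hp)).2.trans (show θ1 < 11 / 10 * θ1 by linarith [H.pos1]))
  rcases le_or_gt (ev M a σ (ch M a σ p)) (6 / 5 * θ1) with e | e
  · filter_upwards [k, H.ovl hp e] with y k1 k2
    cases σ <;> simp only [Bool.not_true, Bool.not_false] at k1
    · rw [G0, if_neg k1.not_ge]; split_ifs; exacts [rfl, k2.symm]
    · rw [G0, if_neg k1.not_ge]; split_ifs; exacts [rfl, k2.symm]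
  · filter_upwards [k, continuousAt_const.eventually_lt (ev_cont (H.dk hx))
      ((show 11 / 10 * θ1 < 6 / 5 * θ1 by linarith [H.pos1]).trans e)] with y k1 k2
    cases σ <;> simp only [Bool.not_true, Bool.not_false] at k1
    · rw [G0, if_neg k1.not_ge, if_pos k2.le]
    · rw [G0, if_pos k2.le]

theorem g2 (hx : x ∈ Bx M a r1 θ1) (e : ∀ σ, ev M a σ x ≤ 6 / 5 * θ1) :
    G0 M a θ1 g gc =ᶠ[𝓝 x] g := by
  by_cases k : ∃ σ, θ ≤ ev M a σ x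
  · obtain ⟨σ, k⟩ := k
    obtain ⟨p, hp, rfl⟩ := (H.key hx k).1
    exact (H.g1 hp).trans (H.ovl hp (e σ))
  · have q (σ) := (ev_cont (σ := σ) (H.dk hx)).eventually_lt continuousAt_const
      ((not_le.1 (not_exists.1 k σ)).trans (show θ < 11 / 10 * θ1 by linarith [H.le1, H.h0]))
    filter_upwards [q true, q false] with y k1 k2
    rw [G0, if_neg k1.not_ge, if_neg k2.not_ge]

theorem kc (hx : x ∈ Bx M a r1 θ1) (e : ∀ σ, ev M a σ x ≤ 6 / 5 * θ1) : x ∈ Kc M a r1 θ1 :=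
  Kc_of H.h1 hx.1 fun σ => (e σ).trans (by linarith [H.pos1])

theorem low (k : ¬∃ σ, θ ≤ ev M a σ x) (σ : Bool) : ev M a σ x ≤ 6 / 5 * θ1 :=
  (not_le.1 (not_exists.1 k σ)).le.trans (by linarith [H.le1, H.h0])

theorem mem_vd (hx : x ∈ Bx M a r1 θ1) : x ∈ vd (G0 M a θ1 g gc) := by
  by_cases k : ∃ σ, θ ≤ ev M a σ x
  · obtain ⟨σ, k⟩ := k
    obtain ⟨p, hp, rfl⟩ := (H.key hx k).1
    obtain ⟨W, l, s⟩ := (H.eg σ).lv
    have c := isCh H.h σ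
    exact ⟨_, DE M a σ ∩ ci M a σ ⁻¹' W, P354YO.lv_pull l
      (c.back.smooth.continuousOn.isOpen_inter_preimage (open_DE σ) l.isOpen)
      (c.back.smooth.mono inter_subset_left) (fun _ h => h.2) fun y h => c.back.inj y h.1,
      ⟨c.maps (H.di hp), by rw [mem_preimage, c.left p (H.di hp)]; exact s hp⟩, H.g1 hp⟩
  · exact ⟨g, D, H.lv, H.sub (H.kc hx (H.low k)), H.g2 hx (H.low k)⟩

theorem ag (hp : p ∈ La M a r1 θ θ1) : gc σ =ᶠ[𝓝 p] pb (ch M a σ) (G0 M a θ1 g gc) :=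
  have c := isCh H.h σ
  ((pb_congr (ch_cd H.h (H.di hp)).continuousAt (H.g1 hp)).trans (pb_inv _ (ch_cd H.h (H.di hp))
    (ci_cd H.h (c.maps (H.di hp))) (mem_of_superset (open_DI.mem_nhds (H.di hp)) c.left))).symm

theorem fut (hp : p ∈ La M a r1 θ θ1) {u w : R4} (hu : gc σ p u u < 0) (hw : gc σ p w w < 0)
    (u0 : 0 < u.1) (w0 : 0 < w.1) : gc σ p u w < 0 := by
  obtain ⟨W, l, s⟩ := (H.eg σ).lv
  refine lev_fut (l.met.lin p (s hp)) (l.met.symm p (s hp)) (fun v e => ?_) hu hw u0 w0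
  have := (abs_le.1 (bd_zero ((H.eg σ).cl p hp) v v)).1
  simp only [Pi.sub_apply] at this
  linarith [(H.mar p hp.1.1).2 v e]

/-- The time orientation in the chart of an end. -/
theorem one (hp : p ∈ La M a r1 θ θ1) : ∃ u, fderiv ℝ (ch M a σ) p u = X0 M a θ1 (ch M a σ p) ∧
    gc σ p u u < 0 ∧ 0 < u.1 := by
  have c := isCh H.h σ
  have di := H.di hp
  have hx := la_bx (σ := σ) H.h hp
  have k := (H.key hx (H.ev_la hp)).2
  obtain ⟨W, l, s⟩ := (H.eg σ).lv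
  obtain ⟨w, hw⟩ := surj_of_inj (c.pull.inj p di) (XK M a (ch M a σ p))
  have w0 : 0 < w.1 := by
    have := c.ori p di
    rw [← hw, ← c.pull.eq p di, (gin_lor H.h).met.symm p di, XI_gin (DI_ne H.h di), neg_lt_zero]
      at this
    exact pos_of_mul_pos_right this (P354XK.Sg_pos ((rm_nn H.h).trans_lt di)).le
  have i0 := XI_fst H.h di
  have i1 : gc σ p (XI M a p) (XI M a p) < 0 := by
    have := (abs_le.1 (bd_zero ((H.eg σ).cl p hp) (XI M a p) (XI M a p))).2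
    simp only [Pi.sub_apply] at this
    linarith [(H.mar p hp.1.1).1]
  have b0 := cb_nn (M := M) (a := a) (θ1 := θ1) (σ := σ) (x := ch M a σ p)
  refine ⟨ca M a θ1 (ch M a σ p) • w + cb M a θ1 σ (ch M a σ p) • XI M a p, by
    rw [X0_eq k.le, map_add, map_smul, map_smul, hw, ZZ, c.left p di], ?_⟩
  rw [met_comb l.met (s hp), met_comb' l.met (s hp), met_comb' l.met (s hp),
    l.met.symm p (s hp) (XI M a p) w, Prod.fst_add, Prod.smul_fst, Prod.smul_fst, smul_eq_mul,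
    smul_eq_mul]
  rcases (ca_nn (M := M) (a := a) (θ1 := θ1) (x := ch M a σ p)).eq_or_lt with e | e
  · obtain ⟨τ, q⟩ := (cab (M := M) (a := a) (x := ch M a σ p) H.pos1).resolve_left e.not_lt
    have b : 0 < cb M a θ1 σ (ch M a σ p) := cb_pos (by
      cases σ <;> cases τ <;> first | exact q | exact (q.not_gt k).elim)
    rw [← e]
    exact ⟨by nlinarith [mul_pos b (mul_pos b (neg_pos.2 i1))], by nlinarith [mul_pos b i0]⟩
  · have q (τ) := (ca_pos.1 e τ).le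
    have w1 : gc σ p w w < 0 := by
      rw [(H.ag hp).eq_of_nhds, pb, hw, (H.g2 hx q).eq_of_nhds]
      exact H.tl _ (H.kc hx q)
    have w2 := H.fut hp w1 i1 w0 i0
    exact ⟨by nlinarith [mul_pos e (mul_pos e (neg_pos.2 w1)),
      mul_nonneg b0 (mul_pos e (neg_pos.2 w2)).le, mul_nonneg b0 (mul_nonneg b0 (neg_pos.2 i1).le)],
      by nlinarith [mul_pos e w0, mul_nonneg b0 i0.le]⟩

theorem agr (σ : Bool) : Agr M a r1 θ θ1 σ (G0 M a θ1 g gc) (X0 M a θ1) (gc σ) := fun p hp => by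
  refine ⟨H.ag hp, fun v v1 v0 => ?_⟩
  obtain ⟨u, e, u1, u0⟩ := H.one (σ := σ) hp
  have := H.fut hp u1 v1 u0 v0
  rwa [(H.ag hp).eq_of_nhds, pb, e] at this

theorem tl0 (hx : x ∈ Bx M a r1 θ1) : G0 M a θ1 g gc x (X0 M a θ1 x) (X0 M a θ1 x) < 0 := by
  by_cases k : ∃ σ, θ ≤ ev M a σ x
  · obtain ⟨σ, k⟩ := k
    obtain ⟨p, hp, rfl⟩ := (H.key hx k).1
    obtain ⟨u, e, u1, -⟩ := H.one (σ := σ) hp
    rwa [(H.ag hp).eq_of_nhds, pb, e] at u1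
  · have q (σ) : ev M a σ x < θ1 := (not_le.1 (not_exists.1 k σ)).trans_le H.le1
    have m := H.kc hx (H.low k)
    have e := ca_pos.2 fun σ => (q σ).trans (show θ1 < 6 / 5 * θ1 by linarith [H.pos1])
    rw [(H.g2 hx (H.low k)).eq_of_nhds, X0_eq (σ := true) (q _).le, cb_zero (q _).le, zero_smul,
      add_zero, met_smul H.lv.met (H.sub m), (H.lv.met.lin x (H.sub m) _).map_smul, smul_eq_mul]
    exact mul_neg_of_pos_of_neg e (mul_neg_of_pos_of_neg e (H.tl x m))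

theorem sl (hy : y ≠ 0) (t : ℝ) : pt 0 y ∈ Bx M a r1 t :=
  ⟨⟨by rwa [xs_pt], le_rfl, by
    rw [kr, show (pt 0 y).1 = 0 from rfl]
    nlinarith [sq_nonneg (kx M a (pt 0 y)), H.h1']⟩, Or.inl rfl⟩

theorem in0 (hy : y ≠ 0) : In0 (G0 M a θ1 g gc) d y := by
  have hx := H.sl hy θ1
  by_cases k : ∃ σ, θ ≤ ev M a σ (pt 0 y)
  · obtain ⟨σ, k⟩ := k
    obtain ⟨p, hp, e⟩ := (H.key hx k).1
    have c := isCh H.h σ
    exact in0_congr ((H.eg σ).ind y (e ▸ c.maps (H.di hp))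
      (by rw [← e, c.left p (H.di hp)]; exact hp)) (e ▸ H.g1 hp)
  · exact in0_congr (H.ind y (H.kc hx (H.low k))) (H.g2 hx (H.low k))

theorem slp (hy : y ≠ 0) (v : R4) (v0 : v ≠ 0) (e : v.1 = 0) :
    0 < G0 M a θ1 g gc (pt 0 y) v v := by
  obtain ⟨n, n1, -, n2⟩ := H.in0 hy
  exact sl_pos (lv_vd _) (H.mem_vd (H.sl hy _)) n1 (fun i => (n2 i i).1) v0 e

theorem mid (hx : x ∈ D0 M a r1) (e : x.1 + |kx M a x| ≤ 2 * θ * mf M a (kr M a x)) :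
    G0 M a θ1 g gc =ᶠ[𝓝 x] g ∧ x ∈ Kc M a r1 θ ∧ x ∈ Kc M a r1 θ1 := by
  have k := (ev_le (D0_sub H.h1.le hx)).2 e
  have b : x ∈ Bx M a r1 θ1 := ⟨hx, .inr ((ev_le (D0_sub H.h1.le hx)).1 fun σ =>
    (k σ).trans (by linarith [H.le1]))⟩
  have q (σ) : ev M a σ x ≤ 6 / 5 * θ1 := (k σ).trans (by linarith [H.h2, H.pos1])
  exact ⟨H.g2 b q, Kc_of H.h1 hx k, H.kc b q⟩

theorem core {m : ℕ} {e : ℝ} (b : ∀ x ∈ Kc M a r1 θ1, Bd m (g - gK M a) x e) :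
    ∃ D', Core M a r1 θ θ1 e m d D' (G0 M a θ1 g gc) (X0 M a θ1) := by
  have l := lv_vd (G0 M a θ1 g gc)
  have o : IsOpen {x | (x ∈ vd (G0 M a θ1 g gc) ∧ x ∈ DK M a) ∧
      G0 M a θ1 g gc x (X0 M a θ1 x) (X0 M a θ1 x) < 0} := isOpen_iff_mem_nhds.2 fun x hx =>
    have c := X0_cont H.h H.pos1 hx.1.2
    ((l.isOpen.eventually_mem hx.1.1).and (open_DK.eventually_mem hx.1.2)).and
      ((met_cont l.met l.isOpen hx.1.1 c c).eventually_lt continuousAt_const hx.2)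
  have l' := l.mono o fun _ h => h.1.1
  have f (x) (hx : x ∈ Bx M a r1 θ) := X0_fst H.h H.pos1 (D0_sub H.h1.le hx.1) (H.tm x hx)
  refine ⟨_, ⟨o, l'.met, l'.vac, l'.sig, fun _ h => h.2,
    fun x h => (X0_cont H.h H.pos1 h.1.2).continuousWithinAt⟩,
    fun x hx => ⟨⟨H.mem_vd hx, H.dk hx⟩, H.tl0 hx⟩, fun y hy => ?_, fun x hx => ⟨f x hx, ?_⟩,
    fun x hx k => P354YI.bd_congr (b x (H.mid hx k).2.2) ((H.mid hx k).1.mono fun z hz => by
      simp only [Pi.sub_apply, hz])⟩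
  · obtain ⟨G, hG⟩ := l.vac
    have hp := H.mem_vd (H.sl hy _)
    obtain ⟨n, n1, n0, n2⟩ := H.in0 hy
    refine ⟨G, n, (hG _ hp).1, n1, lev_fut (l.met.lin _ hp) (l.met.symm _ hp) (fun v k => ?_)
      (by rw [n1]; norm_num) (H.tl0 (H.sl hy _)) n0 (f _ (H.sl hy _)), fun i k => ?_⟩
    · rcases eq_or_ne v 0 with rfl | v0
      exacts [(l.met.lin _ hp 0).map_zero.ge, (H.slp hy v v0 k).le]
    · simp only [pd_p0, P354XK.pd_const, zero_add]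
      refine ⟨(n2 i k).1, (n2 i k).2.1, ?_⟩
      rw [← (n2 i k).2.2, l.met.symm _ hp, chr, ← (hG _ hp).1]
      ring
  · rcases hx.2 with k | k
    · rw [← pt_xs x, k]; exact H.slp hx.1.1
    · rw [(H.mid hx.1 k).1.eq_of_nhds]; exact H.sp x (H.mid hx.1 k).2.1

end Hy

/-- **KGL**. -/
theorem kgl : KGL := by
  intro M a r1 ha h hr
  have a1 : rm M a < (rm M a + r1) / 2 := by linarith [hr.1]
  have a2 : (rm M a + r1) / 2 < r1 := by linarith [hr.1]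
  obtain ⟨θ0, h0, t⟩ := tm_box h a1
  refine ⟨θ0, h0, fun θ hθ θ1 h2 big => ?_⟩
  have t1 : 0 ≤ θ1 := by linarith [hθ.1]
  obtain ⟨κ1, k1, m1⟩ := mar_in h hr.1
  obtain ⟨κ2, k2, m2⟩ := mar_K h (Kc_cpt h hr.1 t1) fun _ hx => hx.1.1
  obtain ⟨κ3, k3, m3⟩ := mar_T h (Kc_cpt h hr.1 hθ.1.le) fun x hx => ⟨hx.1.1, t θ hθ.2 x
    ⟨⟨hx.1.1.1, hx.1.2, a2.trans_le hx.2.1⟩, .inr ((ev_le hx.1.1).1 hx.2.2)⟩⟩
  refine ⟨_, Kc_cpt h hr.1 t1, fun _ hx => hx.1, min κ1 (min κ2 κ3), by positivity,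
    fun m e d g D gc he l b i E => ?_⟩
  obtain ⟨e1, e2, e3⟩ : e ≤ κ1 ∧ e ≤ κ2 ∧ e ≤ κ3 := by simpa only [le_min_iff] using he
  have z (v : R4) : 0 ≤ ‖v‖ * ‖v‖ := by positivity
  have H : Hy M a r1 θ θ1 (min κ1 (min κ2 κ3)) d g D gc := by
    refine ⟨ha, h, hr.1, hr.2, hθ.1, h2, big, l, fun x hx => (b x hx).1, fun x hx => ?_,
      fun x hx v v0 k => ?_, i, E, fun p hp => ⟨?_, fun v k => ?_⟩, fun x hx => t θ hθ.2 x
        ⟨⟨hx.1.1, hx.1.2.1, a2.trans hx.1.2.2⟩, hx.2⟩⟩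
    · have := (abs_le.1 (bd_zero (b x hx).2 (XK M a x) (XK M a x))).2
      simp only [Pi.sub_apply] at this
      linarith [m2 x hx, mul_le_mul_of_nonneg_right e2 (z (XK M a x))]
    · have := (abs_le.1 (bd_zero (b x ⟨hx.1, hx.2.1, fun σ => (hx.2.2 σ).trans
        (by linarith [hθ.1])⟩).2 v v)).1
      simp only [Pi.sub_apply] at this
      linarith [m3 x hx v v0 k, mul_le_mul_of_nonneg_right e3 (z v)]
    · linarith [(m1 p hp).1, mul_le_mul_of_nonneg_right (min_le_left κ1 (min κ2 κ3)) (z (XI M a p))]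
    · linarith [(m1 p hp).2 v k, mul_le_mul_of_nonneg_right (min_le_left κ1 (min κ2 κ3)) (z v)]
  obtain ⟨D', c⟩ := H.core fun x hx => (b x hx).2
  exact ⟨D', _, _, c, H.agr⟩

end Vale.Agent.P354KG
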