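import Vale.Agent.P354YI.Defs2
import Vale.Agent.P354YI.Near
import Vale.Agent.P354DT.Core
import Vale.Agent.P354YO.OutA1
import Vale.Agent.P354YT.Mar

/-!
The gluing in the Kruskal chart: the sets, the time orientation and the margins.
-/

set_option maxSynthPendingDepth 3

open scoped ContDiff
open Set Filter Topology

noncomputable section

namespace Vale.Agent.P354KG

open Vale.Agent.P354n (R4)
open Vale.Agent.P354I (X Dat rm rp Sg ee)
open Vale.Agent.P354R (Met Pull)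
open Vale.Agent.P354RC (surj_of_inj at_df)
open Vale.Agent.P354XE
open Vale.Agent.P354XV (Lv In0)
open Vale.Agent.P354YR
open Vale.Agent.P354YO (sg chs core_of EK)
open Vale.Agent.P354YA (La la_of)
open Vale.Agent.P354YI (ex)

variable {M a r1 θ θ1 : ℝ} {σ : Bool} {p x u v w : R4}

/-- Two timelike vectors with positive time components are in one cone. -/
theorem lev_fut {B : R4 → R4 → ℝ} (l : ∀ a, IsLinearMap ℝ (B a)) (s : ∀ a b, B a b = B b a)
    (k : ∀ v : R4, v.1 = 0 → 0 ≤ B v v) (hu : B u u < 0) (hw : B w w < 0) (u0 : 0 < u.1)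
    (w0 : 0 < w.1) : B u w < 0 := by
  have e := k (w.1 • u - u.1 • w) (by simp [mul_comm])
  rw [(l _).map_sub, (l _).map_smul, (l _).map_smul, s _ u, s _ w, (l _).map_sub, (l _).map_sub,
    (l _).map_smul, (l _).map_smul, (l _).map_smul, (l _).map_smul, s w u] at e
  simp only [smul_eq_mul] at e
  by_contra n
  nlinarith [mul_nonneg (mul_pos u0 w0).le (not_lt.1 n), mul_pos (mul_pos w0 w0) (neg_pos.2 hu),
    mul_pos (mul_pos u0 u0) (neg_pos.2 hw)]

theorem pb_inv {f f' : R4 → R4} (g : Tw) (s : ContDiffAt ℝ ∞ f p) (s' : ContDiffAt ℝ ∞ f' (f p))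
    (e : ∀ᶠ y in 𝓝 p, f' (f y) = y) : pb f (pb f' g) =ᶠ[𝓝 p] g := by
  refine (P354YO.pb_comp s s').symm.trans (e.eventually_nhds.mono fun y hy => ?_)
  have k : f' ∘ f =ᶠ[𝓝 y] id := hy
  funext v w
  simp only [pb, k.fderiv_eq, k.eq_of_nhds, fderiv_id, id, ContinuousLinearMap.id_apply]

/-- The size of the ingoing time of the end σ, as a function on the Kruskal chart. -/
def ev (M a : ℝ) (σ : Bool) (x : R4) : ℝ := (x.1 + sg σ * kx M a x) / mf M a (kr M a x)

theorem ev_cont (hx : x ∈ DK M a) : ContinuousAt (ev M a σ) x :=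
  (continuousAt_fst.add (continuousAt_const.mul (s_kx contDiffAt_id hx.1).continuousAt)).div
    (s_mf (s_kr contDiffAt_id hx.1) hx.2).continuousAt (mf_pos hx.2).ne'

theorem ev_DE (hx : x ∈ DK M a) (h : 0 < ev M a σ x) : x ∈ DE M a σ := by
  refine ⟨hx, ?_⟩
  have := (div_pos_iff_of_pos_right (mf_pos hx.2)).1 h
  cases σ <;> simpa [sg, kU, kV, sub_eq_add_neg] using this

theorem ev_le {c : ℝ} (hx : x ∈ DK M a) :
    (∀ σ, ev M a σ x ≤ 2 * c) ↔ x.1 + |kx M a x| ≤ 2 * c * mf M a (kr M a x) := by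
  simp only [ev, div_le_iff₀ (mf_pos hx.2), Bool.forall_bool, sg, cond_true, cond_false]
  constructor
  · intro h; rcases abs_choice (kx M a x) with k | k <;> rw [k] <;> linarith [h.1, h.2]
  · intro h; constructor <;> linarith [le_abs_self (kx M a x), neg_abs_le (kx M a x)]

/-- The compact middle part. -/
def Kc (M a r1 θ : ℝ) : Set R4 :=
  {x | (x ∈ DK M a ∧ 0 ≤ x.1) ∧ r1 ≤ kr M a x ∧ ∀ σ, ev M a σ x ≤ 2 * θ}

theorem Gf_le {s c : ℝ} (h : s ≤ c) (c0 : 0 ≤ c) : P354DT.Gf s ≤ c := by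
  rcases le_total s 0 with k | k
  · rw [P354DT.Gf, Real.smoothTransition.zero_of_nonpos k, mul_zero]; exact c0
  · exact (mul_le_of_le_one_right k (Real.smoothTransition.le_one s)).trans h

theorem Kc_cpt (h : |a| < M) (h1 : rm M a < r1) (h0 : 0 ≤ θ) : IsCompact (Kc M a r1 θ) := by
  have e : Kc M a r1 θ = {p | p ∈ DK M a ∧ 0 ≤ p.1 ∧ P354DT.Ld M a p ≤ 8 * θ + (r1 - rm M a)⁻¹} ∩
      (fun p => (kr M a p, ev M a true p, ev M a false p)) ⁻¹'
        Ici r1 ×ˢ Iic (2 * θ) ×ˢ Iic (2 * θ) := by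
    refine Subset.antisymm (fun p hp => ⟨⟨hp.1.1, hp.1.2, ?_⟩, hp.2.1, hp.2.2 _, hp.2.2 _⟩)
      fun p hp => ⟨⟨hp.1.1, hp.1.2.1⟩, hp.2.1, fun σ => by cases σ; exacts [hp.2.2.2, hp.2.2.1]⟩
    have e1 : eV M a p ≤ 2 * θ := by simpa [ev, sg, eV, kV] using hp.2.2 true
    have e2 : eU M a p ≤ 2 * θ := by simpa [ev, sg, eU, kU, sub_eq_add_neg] using hp.2.2 false
    have e3 : P354DT.qk M a p ≤ (r1 - rm M a)⁻¹ := (sub_le_self _ (inv_pos.2
      (sub_pos.2 (rm_lt h))).le).trans (inv_anti₀ (sub_pos.2 h1) (sub_le_sub_right hp.2.1 _))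
    rw [P354DT.Ld, tau0_eq]
    linarith [Gf_le e1 (by linarith), Gf_le e2 (by linarith),
      Gf_le e3 (inv_pos.2 (sub_pos.2 h1)).le]
  rw [e]
  exact P354DT.cpt_pre (P354DT.Ld_cpt h _) (fun p hp => ((s_kr contDiffAt_id hp.1.1).continuousAt.prodMk
    ((ev_cont hp.1).prodMk (ev_cont hp.1))).continuousWithinAt)
    (isClosed_Ici.prod (isClosed_Iic.prod isClosed_Iic))

theorem Kc_of (h1 : rm M a < r1) (hx : x ∈ D0 M a r1) (e : ∀ σ, ev M a σ x ≤ 2 * θ) :
    x ∈ Kc M a r1 θ := ⟨⟨D0_sub h1.le hx, hx.2.1⟩, hx.2.2.le, e⟩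

section
variable (ha : a ≠ 0) (h : |a| < M) (h1 : rm M a < r1)
include ha h

theorem ev_ch (hp : p ∈ DI M a) : ev M a σ (ch M a σ p) = ex M a p := by
  obtain ⟨-, e2, -, e4⟩ := (chs kap_ok ha h σ).val p hp
  rw [ev, e2, e4, mul_div_cancel_left₀ _ (mf_pos hp).ne', ex]

include h1

/-- The points of the box which lie in the end σ. -/
theorem key (h0 : 0 < θ) (h2 : θ ≤ θ1) (big : rp M a - r1 ≤ θ * θ1 * mf M a r1 ^ 2)
    (hx : x ∈ Bx M a r1 θ1) (e : θ ≤ ev M a σ x) :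
    (∃ p ∈ La M a r1 θ θ1, ch M a σ p = x) ∧ ev M a (!σ) x < θ1 := by
  have m := mf_pos (h1.trans hx.1.2.2)
  have k : x ∈ EK M a r1 θ σ := ⟨hx.1, (le_div_iff₀ m).1 e⟩
  obtain ⟨p, hp, rfl⟩ := (chs kap_ok ha h σ).ex h1 h0 k
  refine ⟨⟨p, la_of h h1 hp hx, rfl⟩, (div_lt_iff₀ m).2 ?_⟩
  have := core_of h h1 h0 h2 big k
  cases σ <;> simp only [sg, Bool.not_true, Bool.not_false, cond_true, cond_false] at this ⊢ <;>
    linarith

omit ha h1 in
theorem la_bx (hp : p ∈ La M a r1 θ θ1) : ch M a σ p ∈ Bx M a r1 θ1 := by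
  cases σ
  · have n : xs (kap M a p) ≠ 0 := hp.2.1.1
    have e : ch M a false p = mir M a (kap M a p) := rfl
    simp only [Bx, D0, mem_ofPred_eq, e, mir_r h n, mir_kx h n, abs_neg]
    exact ⟨⟨mir_ne h n, hp.2.1.2⟩, hp.2.2⟩
  · exact hp.2
end

/-! ### The time orientation -/

def ZZ (M a : ℝ) (σ : Bool) (x : R4) : R4 :=
  fderiv ℝ (ch M a σ) (ci M a σ x) (XI M a (ci M a σ x))
def ca (M a θ1 : ℝ) (x : R4) : ℝ :=
  max 0 (6 / 5 * θ1 - ev M a true x) * max 0 (6 / 5 * θ1 - ev M a false x)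
def cb (M a θ1 : ℝ) (σ : Bool) (x : R4) : ℝ := max 0 (ev M a σ x - θ1)
def X0 (M a θ1 : ℝ) (x : R4) : R4 := ca M a θ1 x • XK M a x +
  (cb M a θ1 true x • ZZ M a true x + cb M a θ1 false x • ZZ M a false x)

theorem ca_nn : 0 ≤ ca M a θ1 x := mul_nonneg (le_max_left _ _) (le_max_left _ _)
theorem cb_nn : 0 ≤ cb M a θ1 σ x := le_max_left _ _
theorem cb_zero (e : ev M a σ x ≤ θ1) : cb M a θ1 σ x = 0 := max_eq_left (sub_nonpos.2 e)
theorem cb_pos (e : θ1 < ev M a σ x) : 0 < cb M a θ1 σ x := lt_max_of_lt_right (sub_pos.2 e)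
theorem ca_pos : 0 < ca M a θ1 x ↔ ∀ σ, ev M a σ x < 6 / 5 * θ1 := by
  refine ⟨fun e σ => not_le.1 fun k => e.ne' ?_, fun e => mul_pos
    (lt_max_of_lt_right (sub_pos.2 (e _))) (lt_max_of_lt_right (sub_pos.2 (e _)))⟩
  cases σ <;> simp [ca, max_eq_left (sub_nonpos.2 k)]

theorem cab (h0 : 0 < θ1) : 0 < ca M a θ1 x ∨ ∃ σ, θ1 < ev M a σ x := by
  by_contra k
  rw [not_or, not_exists, ca_pos] at k
  exact k.1 fun σ => (not_lt.1 (k.2 σ)).trans_lt (by linarith)

theorem X0_eq (e : ev M a (!σ) x ≤ θ1) :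
    X0 M a θ1 x = ca M a θ1 x • XK M a x + cb M a θ1 σ x • ZZ M a σ x := by
  have := cb_zero e
  cases σ <;> simp only [Bool.not_true, Bool.not_false] at this <;> simp [X0, this]

section
variable (h : |a| < M)
include h

theorem ch_cd (hp : p ∈ DI M a) : ContDiffAt ℝ ∞ (ch M a σ) p :=
  (isCh h σ).pull.smooth.contDiffAt (open_DI.mem_nhds hp)
theorem ci_cd (hx : x ∈ DE M a σ) : ContDiffAt ℝ ∞ (ci M a σ) x :=
  (isCh h σ).back.smooth.contDiffAt ((open_DE σ).mem_nhds hx)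

theorem X0_cont (h0 : 0 < θ1) (hx : x ∈ DK M a) : ContinuousAt (X0 M a θ1) x := by
  have k (σ) : ContinuousAt (fun x => cb M a θ1 σ x • ZZ M a σ x) x := by
    rcases lt_or_ge 0 (ev M a σ x) with e | e
    · have e1 := ev_DE hx e
      have e2 := (isCh h σ).back.maps e1
      exact (continuousAt_const.max ((ev_cont hx).sub continuousAt_const)).smul
        ((((ch_cd h e2).continuousAt_fderiv (by simp)).clm_apply
          (s_XI (DI_ne h e2)).continuousAt).comp (ci_cd h e1).continuousAt)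
    · refine (continuousAt_const (y := (0 : R4))).congr ?_
      filter_upwards [(ev_cont hx).eventually_lt continuousAt_const (e.trans_lt h0)] with y hy
      rw [cb_zero hy.le, zero_smul]
  exact (((continuousAt_const.max (continuousAt_const.sub (ev_cont hx))).mul
    (continuousAt_const.max (continuousAt_const.sub (ev_cont hx)))).smul
      (s_XK hx).continuousAt).add ((k true).add (k false))

/-- The time component of X0 is positive where T is a time function. -/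
theorem X0_fst (h0 : 0 < θ1) (hx : x ∈ DK M a) (t : Tm (gK M a) (XK M a) (fun p => p.1) x) :
    0 < (X0 M a θ1 x).1 := by
  obtain ⟨-, t1, t2⟩ := t
  simp only [fderiv_fst, ContinuousLinearMap.coe_fst'] at t1 t2
  have k (σ) (e : θ1 < ev M a σ x) : 0 < (ZZ M a σ x).1 := by
    have e1 := ev_DE hx (h0.trans e)
    have c := isCh h σ
    have e2 := c.back.maps e1
    have o := c.ori _ e2
    have q := (gin_lor h).tl _ e2
    rw [c.pull.eq _ e2] at q
    rw [c.right _ e1] at o q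
    exact P354YO.cone_pos (gK_met h) hx (f := Prod.fst) ⟨fun _ _ => rfl, fun _ _ => rfl⟩ t2
      ((gK_lor h).tl _ hx) q o t1
  have k' (σ) : 0 ≤ cb M a θ1 σ x * (ZZ M a σ x).1 := by
    rcases lt_or_ge θ1 (ev M a σ x) with e | e
    exacts [mul_nonneg cb_nn (k σ e).le, by rw [cb_zero e, zero_mul]]
  have k0 := mul_nonneg (ca_nn (M := M) (a := a) (θ1 := θ1) (x := x)) t1.le
  simp only [X0, Prod.fst_add, Prod.smul_fst, smul_eq_mul]
  rcases cab (M := M) (a := a) (x := x) h0 with e | ⟨σ, e⟩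
  · linarith [mul_pos e t1, k' true, k' false]
  · have := mul_pos (cb_pos e) (k σ e)
    cases σ <;> linarith [k' true, k' false]

/-! ### The margins -/

theorem XI_fst (hp : p ∈ DI M a) : 0 < (XI M a p).1 :=
  have r := (rm_nn h).trans_lt hp
  add_pos (P354XK.Sg_pos r) (mul_pos (mul_pos two_pos (M_pos h)) r)

theorem mar_in (h1 : rm M a < r1) : ∃ κ > 0, ∀ p, r1 < rd p →
    gin M a p (XI M a p) (XI M a p) + κ * (‖XI M a p‖ * ‖XI M a p‖) < 0 ∧
      ∀ v : R4, v.1 = 0 → κ * (‖v‖ * ‖v‖) ≤ gin M a p v v := by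
  have r0 := (rm_nn h).trans_lt h1
  have M0 := M_pos h
  obtain ⟨c, c0, k⟩ := P354YT.gin_ge 1 one_pos (show 0 ≤ a ^ 2 / r1 ^ 2 by positivity)
  refine ⟨min c (r1 / (2 * (r1 + 2 * M))), by positivity, fun p hp => ⟨?_, fun v hv => ?_⟩⟩
  · have r := r0.trans hp
    have s1 : rd p ^ 2 ≤ Sg a (rd p) (xs p) := le_add_of_nonneg_right (by positivity)
    have n : ‖XI M a p‖ ≤ Sg a (rd p) (xs p) + 2 * M * rd p := by
      have : ‖p.2‖ ≤ rd (0, p.2) := by simpa using P354XA.norm_le (0, p.2)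
      replace this : ‖p.2‖ ≤ rd p := this
      rw [XI, Prod.norm_mk, norm_smul, Real.norm_eq_abs, Real.norm_eq_abs, abs_neg,
        abs_of_pos (show 0 < Sg a (rd p) (xs p) + 2 * M * rd p from XI_fst h (h1.trans hp)),
        abs_of_pos (mul_pos two_pos M0)]
      exact max_le le_rfl (by nlinarith [mul_le_mul_of_nonneg_left this M0.le, sq_nonneg (rd p)])
    rw [XI_gin (xs_ne r), show (XI M a p).1 = Sg a (rd p) (xs p) + 2 * M * rd p from rfl]
    generalize Sg a (rd p) (xs p) = S at *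
    have e : r1 / (2 * (r1 + 2 * M)) * (S + 2 * M * rd p) < S := by
      rw [div_mul_eq_mul_div, div_lt_iff₀ (by positivity)]
      nlinarith [mul_pos r0 (lt_of_lt_of_le (pow_pos r 2) s1), mul_pos M0 (mul_pos r (sub_pos.2 hp)),
        mul_le_mul_of_nonneg_left s1 M0.le]
    have q : 0 < S + 2 * M * rd p := by nlinarith [mul_pos M0 r]
    have := mul_le_mul (min_le_right c (r1 / (2 * (r1 + 2 * M))))
      (mul_self_le_mul_self (norm_nonneg _) n) (by positivity) (by positivity)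
    nlinarith [mul_lt_mul_of_pos_right e q]
  · have r := r0.trans hp
    refine (mul_le_mul_of_nonneg_right (min_le_left _ _) (by positivity)).trans ?_
    rw [← sq]
    refine k M a p v 1 r ?_ (by simp) ?_ (by rw [hv, zero_add, one_mul])
    · rw [div_mul_eq_mul_div, le_div_iff₀ (by positivity)]
      exact mul_le_mul_of_nonneg_left (pow_le_pow_left₀ r0.le hp.le 2) (sq_nonneg a)
    · rw [P354YT.mm, P354R.Del]; nlinarith [mul_pos M0 r]

theorem mar_K {K : Set R4} (hK : IsCompact K) (s : K ⊆ DK M a) : ∃ κ > 0, ∀ x ∈ K,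
    gK M a x (XK M a x) (XK M a x) + κ * (‖XK M a x‖ * ‖XK M a x‖) < 0 := by
  have l := gK_lor h
  have n (x) (hx : x ∈ K) : 0 < ‖XK M a x‖ * ‖XK M a x‖ :=
    mul_self_pos.2 (norm_ne_zero_iff.2 (P354YO.ne_of_tl l (s hx)))
  obtain ⟨c, c0, k⟩ := hK.exists_forall_le' (a := 0)
    (f := fun x => -gK M a x (XK M a x) (XK M a x) / (‖XK M a x‖ * ‖XK M a x‖))
    (fun x hx => by
      have := (s_XK (s hx)).continuousAt
      exact ((P354YO.met_cont l.met l.isOpen (s hx) this this).neg.div (this.norm.mul this.norm)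
        (n x hx).ne').continuousWithinAt)
    fun x hx => div_pos (neg_pos.2 (l.tl x (s hx))) (n x hx)
  refine ⟨c / 2, half_pos c0, fun x hx => ?_⟩
  have := (le_div_iff₀ (n x hx)).1 (k x hx)
  nlinarith [mul_pos c0 (n x hx)]

theorem mar_T {K : Set R4} (hK : IsCompact K)
    (s : ∀ x ∈ K, x ∈ DK M a ∧ Tm (gK M a) (XK M a) (fun p => p.1) x) : ∃ κ > 0, ∀ x ∈ K,
      ∀ v : R4, v ≠ 0 → v.1 = 0 → κ * (‖v‖ * ‖v‖) < gK M a x v v := by
  have l := gK_lor h
  obtain ⟨c, c0, k⟩ := P354YI.cau_cpt ⟨l.isOpen, l.met, l.vac, l.sig⟩ contDiff_fst hK fun x hx =>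
    ⟨(s x hx).1, (s x hx).2.2.2, by simp [fderiv_fst, eT], fun v _ e => by simpa [fderiv_fst]⟩
  refine ⟨c, c0, fun x hx v v0 e => not_le.1 fun q => ?_⟩
  have := (k x hx).2 v (by rwa [sq]) e.ge
  simp only [fderiv_fst, ContinuousLinearMap.coe_fst', e] at this
  exact this.not_gt (mul_pos c0 (norm_pos_iff.2 v0))
end

/-- The slice is spacelike if it has a timelike normal. -/
theorem sl_pos {g : Tw} {D : Set R4} {y : X} {n : R4} (l : Lv g D) (hy : pt 0 y ∈ D)
    (n1 : g (pt 0 y) n n = -1) (n2 : ∀ i, g (pt 0 y) (pt 0 (ee i)) n = 0) (v0 : v ≠ 0)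
    (e : v.1 = 0) : 0 < g (pt 0 y) v v := by
  refine not_le.1 fun q => v0 (zero_of (l.sig _ hy) (by rw [n1]; norm_num) q ?_)
  have k : v = v.2.1 • pt 0 (ee 0) + (v.2.2.1 • pt 0 (ee 1) + v.2.2.2 • pt 0 (ee 2)) := by
    simp [pt, ee, Prod.ext_iff, e]
  have i := l.met.lin _ hy n
  have s := l.met.symm _ hy
  rw [s, k, i.map_add, i.map_add, i.map_smul, i.map_smul, i.map_smul, s n, s n, s n, n2, n2, n2]
  simp

end Vale.Agent.P354KG
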