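import Vale.Agent.P354KG.Rc
import Vale.Agent.P354SM.NDefs
import Vale.Agent.P354YR.Vac

/-!
RAYS: the near rays and the far rays are glued.
-/

open scoped ContDiff
open Set Filter Topology

noncomputable section

namespace Vale.Agent.P354KG

open Vale.Agent.P354n (R4)
open Vale.Agent.P354H (X3)
open Vale.Agent.P354R (Met Vac Pull)
open Vale.Agent.P354RC (k2)
open Vale.Agent.P354XE (Tw pb Par rd ur kap En)
open Vale.Agent.P354YM (Pm Jd)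
open Vale.Agent.P354SA

/-- The facts about one far chart. -/
def Cf (M a r0 : ℝ) (q : Par) (σ : Bool) (T : ℝ) : Prop :=
  (∀ g D, IsOpen D → Met g D → Pull (Tq q σ T) (pb (Tq q σ T) g) (Dq M q σ T D) g D) ∧
    InjOn (Tq q σ T) {z | 3 * M < z.2.1} ∧ ∀ z : R4, 3 * M < z.2.1 → rd (Tq q σ T z) = z.2.1 ∧
      ur q.M q.a (P354YM.inv q (Tq q σ T z)) = T - z.1 ∧
      (0 < (kap M a (Tq q σ T z)).1 ↔ 0 < fi q.l T (fz M a q) z) ∧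
      ((kap M a (Tq q σ T z)).1 = 0 ↔ fi q.l T (fz M a q) z = 0) ∧
      (r0 ≤ z.2.1 → 0 ≤ fi q.l T (fz M a q) z → 0 ≤ (Tq q σ T z).1) ∧
      (r0 ≤ z.2.1 → q.l * (T - z.1) + 199 / 100 * z.2.1 ≤ (Tq q σ T z).1 + z.2.1) ∧
      ∀ c, q.Near M a (c / 20) → c ≤ 1 - z.2.2.1 ^ 2 - z.2.2.2 ^ 2 →
        0 < P354E.sg σ * (Tq q σ T z).2.2.2

/-- The glued map and its domain. -/
def Pg (s2 : ℝ) (Φ Ψ : R4 → R4) (z : R4) : R4 := if z.1 < s2 then Φ z else Ψ z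
def Og (w δ : ℝ) (S : X3 → ℝ) : Set R4 := {z ∈ RK w (-2) δ S | z.2.1 - δ < z.1}

theorem num {l T s r s2 C3 R u δ : ℝ} (l1 : |l - 1| ≤ 1 / 100) (h1 : 49 / 100 * (s - s2) ≤ r)
    (h2 : s < u + δ) (h3 : δ ≤ 1) (h4 : u ≤ 21 / 10 * T) (h5 : s2 ∈ Icc 3 C3)
    (h6 : 4 * (C3 + 1) ≤ T) (h7 : 2 / 5 * R ≤ T) (h8 : 20 ≤ T) :
    R / 4 ≤ l * (T - s) + 199 / 100 * r := by
  have l := abs_le.1 l1
  rcases le_total s T with k | k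
  · nlinarith [h5.1, h5.2, mul_le_mul_of_nonneg_right l.1 (sub_nonneg.2 k)]
  · nlinarith [h5.1, h5.2, mul_le_mul_of_nonneg_right l.2 (sub_nonneg.2 k)]

theorem num2 {t r R M C C' : ℝ} (h : t + r ∈ Icc (R / 4) (C * R)) (r0 : 0 ≤ r) (r1 : r ≤ 6 * M)
    (h1 : 6 * M ≤ R) (c : 1 ≤ C) (c' : C ≤ C') : |t| + r ≤ 2 * C' * R := by
  have R0 : 0 ≤ R := by linarith
  have : |t| ≤ C * R := abs_le.2 ⟨by nlinarith [h.1], by linarith [h.2]⟩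
  nlinarith

/-- The hypotheses of the gluing. -/
structure Gi (n : ℕ) (C1 C2 C3 C0 C0' C C' w s2 r2 rr R T L ε δN δF σe r0 : ℝ) (j : Jd) (P : Pm)
    (g : Tw) (D O : Set R4) (Y Φ : R4 → R4) (q' : Par) (σ : Bool) (J : X3 → R4)
    (Y0 Yf : R4 → E5) (S : X3 → ℝ) : Prop where
  hD : IsOpen D ∧ Met g D ∧ Vac g D
  N : Nout n C1 C2 C3 w s2 r2 rr R T δN σe j P g D Y q' σ J O Φ Y0
  X : Exit (n + 4) C1 C2 C3 w s2 r2 (pb (Tq q' σ T) g) Y0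
  F : Fout n C0 C1 C ε T L w s2 (2 * j.T) r2 σe q'.l δF (fz P.M P.a q') (pb (Tq q' σ T) g)
    (Dq P.M q' σ T D) Y0 S Yf
  H : Cf P.M P.a r0 q' σ T
  hM : |P.a| < P.M
  c1 : 1 ≤ C1
  c2 : C2 ≤ C0'
  c0 : C0 ≤ C0'
  c0' : 1 ≤ C0'
  c3 : 1 ≤ C3
  c3' : C3 ≤ C'
  c : 1 ≤ C
  c' : C ≤ C'
  r1 : r0 ≤ r2 - C1 - 1
  r6 : 6 * P.M < r2 - C1 - 1
  rr1 : P.r1 < rr
  rr2 : rr ≤ 2 * P.M
  θ1 : P.θ ≤ 1
  T1 : 20 ≤ T
  T2 : 4 * (C3 + 1) ≤ T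
  ε1 : ε ≤ 1 / 10
  l1 : |q'.l - 1| ≤ 1 / 100
  l2 : q'.Near P.M P.a ((2 * C1)⁻¹ / 20)
  R1 : 6 * P.M ≤ R
  hw : w ∈ Ioc 0 (1 / 10)
  hσ : σe ∈ Ioc 1 2
  d0 : 0 < δF
  L0 : 0 ≤ L
  j0 : 0 ≤ j.T

namespace Gi

variable {n : ℕ} {C1 C2 C3 C0 C0' C C' w s2 r2 rr R T L ε δN δF σe r0 δ : ℝ} {j : Jd}
  {P : Pm} {g : Tw} {D O : Set R4} {Y Φ : R4 → R4} {q' : Par} {σ : Bool} {J : X3 → R4}
  {Y0 Yf : R4 → E5} {S : X3 → ℝ} {z z' : R4} {x : X3}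
  (G : Gi n C1 C2 C3 C0 C0' C C' w s2 r2 rr R T L ε δN δF σe r0 j P g D O Y Φ q' σ J Y0 Yf S)
include G

theorem hS (hx : x ∈ Wk w 1) : 19 / 10 * T ≤ S x ∧ S x ≤ 21 / 10 * T ∧ s2 + 1 < S x := by
  have := abs_le.1 (G.F.bt x hx).1.1
  have e := mul_le_mul_of_nonneg_right G.ε1 (show 0 ≤ T by linarith [G.T1])
  refine ⟨?_, ?_, ?_⟩ <;> linarith [this.1, this.2, G.T1, G.T2, G.N.par.2.2.1.2]

theorem oO : IsOpen (Og w (min δN δF) S) := (rk_open fun x hx => (G.F.bt x hx).2.1.cont).inter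
  (isOpen_lt (by fun_prop) continuous_fst)

theorem mN (hz : z ∈ (Og w (min δN δF) S)) (e : z.1 < s2 + 1) : z ∈ O := by
  rw [G.N.dom]
  exact ⟨wk_mono G.hw.1.le one_le_two hz.1.1, by linarith [hz.2, min_le_left δN δF], e⟩

omit G in
theorem mF (hz : z ∈ (Og w (min δN δF) S)) (e : s2 - 1 < z.1) : z ∈ RK w (s2 - 1) δF S :=
  ⟨hz.1.1, e, by linarith [hz.1.2.2, min_le_right δN δF]⟩

theorem ov (hz : z ∈ (Og w (min δN δF) S)) (e : s2 - 1 < z.1) (e' : z.1 < s2 + 1) : Φ z = (Tq q' σ T ∘ Ph Yf) z := by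
  rw [(G.N.pt z (G.mN hz e')).2.2.2.2.2.2.2.2.2.2.2 e, Function.comp_apply, Ph, Ph,
    G.F.eq z (mF hz e) e']

theorem eN (hz : z ∈ (Og w (min δN δF) S)) (e : z.1 < s2 + 1) : (Pg s2 Φ (Tq q' σ T ∘ Ph Yf)) =ᶠ[𝓝 z] Φ := by
  filter_upwards [G.oO.mem_nhds hz, continuousAt_fst.eventually_lt continuousAt_const e] with y a b
  rw [Pg]; split_ifs with k
  exacts [rfl, (G.ov a (by linarith) b).symm]

theorem eF (hz : z ∈ (Og w (min δN δF) S)) (e : s2 - 1 < z.1) : (Pg s2 Φ (Tq q' σ T ∘ Ph Yf)) =ᶠ[𝓝 z] (Tq q' σ T ∘ Ph Yf) := by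
  filter_upwards [G.oO.mem_nhds hz, continuousAt_const.eventually_lt continuousAt_fst e] with y a b
  rw [Pg]; split_ifs with k
  exacts [G.ov a b (by linarith), rfl]

theorem PF : Pull (Tq q' σ T ∘ Ph Yf) (pb (Ph Yf) (pb (Tq q' σ T) g)) (RK w (s2 - 1) δF S) g D :=
  P354YR.pull_comp (G.H.1 g D G.hD.1 G.hD.2.1) G.F.pull

theorem gN (hz : z ∈ (Og w (min δN δF) S)) (e : z.1 < s2 + 1) : pb (Pg s2 Φ (Tq q' σ T ∘ Ph Yf)) g =ᶠ[𝓝 z] pb Φ g := pb_map g (G.eN hz e)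

theorem gF (hz : z ∈ (Og w (min δN δF) S)) (e : s2 - 1 < z.1) : pb (Pg s2 Φ (Tq q' σ T ∘ Ph Yf)) g =ᶠ[𝓝 z] pb (Ph Yf) (pb (Tq q' σ T) g) :=
  (pb_map g (G.eF hz e)).trans (mem_of_superset (G.PF.open'.mem_nhds (mF hz e)) fun y hy =>
    funext₂ fun v u => (G.PF.eq y hy v u).symm)

omit G in
theorem cs (s2 : ℝ) (z : R4) : z.1 < s2 + 1 ∨ s2 - 1 < z.1 :=
  (lt_or_ge z.1 s2).imp (fun _ => by linarith) fun _ => by linarith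

theorem PO : Pull (Pg s2 Φ (Tq q' σ T ∘ Ph Yf)) (pb (Pg s2 Φ (Tq q' σ T ∘ Ph Yf)) g) (Og w (min δN δF) S) g D := by
  refine ⟨G.oO, G.hD.1, G.hD.2.1, fun z hz => ContDiffAt.contDiffWithinAt ?_, fun z hz => ?_,
    fun z hz => ?_, fun _ _ _ _ => rfl⟩ <;> rcases cs s2 z with e | e
  · exact (P354YR.pull_at G.N.pull.1 (G.mN hz e)).congr_of_eventuallyEq (G.eN hz e)
  · exact (P354YR.pull_at G.PF (mF hz e)).congr_of_eventuallyEq (G.eF hz e)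
  · rw [(G.eN hz e).eq_of_nhds]; exact G.N.pull.1.maps (G.mN hz e)
  · rw [(G.eF hz e).eq_of_nhds]; exact G.PF.maps (mF hz e)
  · rw [(G.eN hz e).fderiv_eq]; exact G.N.pull.1.inj z (G.mN hz e)
  · rw [(G.eF hz e).fderiv_eq]; exact G.PF.inj z (mF hz e)

theorem tp (hz : z ∈ (Og w (min δN δF) S)) (e : z.1 = z.2.1) : z.1 < s2 := by
  linarith [hz.1.1.1.2, G.hw.2, G.N.par.2.2.1.1]

theorem hp (z : R4) (hz : z ∈ (Og w (min δN δF) S)) : Nul (pb (Pg s2 Φ (Tq q' σ T ∘ Ph Yf)) g) z ∧ (z.2.1 ≤ z.1 → z.1 ≤ S z.2 →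
    Rz n C0' C' T L (2 * j.T) σe (pb (Pg s2 Φ (Tq q' σ T ∘ Ph Yf)) g) z) ∧ (z.1 = z.2.1 → |a0 (pb (Pg s2 Φ (Tq q' σ T ∘ Ph Yf)) g) z| ≤ 1 / 20) := by
  refine ⟨?_, fun a b => ?_, fun e => ?_⟩
  · rcases cs s2 z with e | e
    · rw [Nul, (G.gN hz e).eq_of_nhds]; exact (G.N.pt z (G.mN hz e)).1
    · rw [Nul, (G.gF hz e).eq_of_nhds]; exact (G.F.pt z (mF hz e)).1
  · rcases lt_or_ge z.1 s2 with e | e
    · have e' : z.1 < s2 + 1 := by linarith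
      exact rz_of ((G.N.pt z (G.mN hz e')).2.2.2.2.2.2.2.2.1 a L) (G.gN hz e')
        (one_pos.trans_le G.c3) G.c3' G.c2
    · have e' : s2 - 1 < z.1 := by linarith
      exact rz_of (((G.F.pt z (mF hz e')).2 e).2.2.2.2 b) (G.gF hz e') (one_pos.trans_le G.c)
        G.c' G.c0
  · have e' : z.1 < s2 + 1 := by linarith [G.tp hz e]
    rw [(a0_c (G.gN hz e')).eq_of_nhds]
    exact ((G.N.pt z (G.mN hz e')).2.2.2.2.2.2.2.2.2.1 e).2.1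

theorem hb (x : X3) (hx : x ∈ Wk w 1) : Bt n C' ε T L S (pb (Pg s2 Φ (Tq q' σ T ∘ Ph Yf)) g) x := by
  obtain ⟨a, -, b⟩ := G.hS hx
  have m := lt_min G.N.par.1 G.d0
  have t := G.T1
  exact bt_of (G.F.bt x hx) (G.gF ⟨⟨hx, by dsimp only; linarith, by dsimp only; linarith⟩, by
    dsimp only; linarith [hx.1.2, G.hw.2]⟩ (by dsimp only; linarith)) (one_pos.trans_le G.c) G.c'
    G.L0

theorem sO (h1 : δ ≤ min δN δF) (h2 : δ ≤ 1) (hz : z ∈ RD w δ S) : z ∈ (Og w (min δN δF) S) ∧ z.2 ∈ Wk w 0 :=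
  ⟨⟨⟨wk_mono G.hw.1.le zero_le_one (wn_eq ▸ hz.1), by linarith [hz.1.1.1, hz.2.1, G.hw.2],
    by linarith [hz.2.2]⟩, by linarith [hz.2.1]⟩, wn_eq ▸ hz.1⟩

theorem r3 (hz : z ∈ (Og w (min δN δF) S)) (e : s2 ≤ z.1) : r2 - C1 - 1 ≤ (Ph Yf z).2.1 ∧ 3 * P.M < (Ph Yf z).2.1 := by
  have := ((G.F.pt z (mF hz (by linarith))).2 e).1
  have k : r2 - C1 - 1 ≤ (Ph Yf z).2.1 := le_trans (by linarith) this
  exact ⟨k, by linarith [G.r6, P354YR.M_pos G.hM]⟩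

theorem mix (hz : z ∈ (Og w (min δN δF) S)) (hz' : z' ∈ (Og w (min δN δF) S)) (e : z.1 < s2) (e' : s2 ≤ z'.1) : (Pg s2 Φ (Tq q' σ T ∘ Ph Yf)) z ≠ (Pg s2 Φ (Tq q' σ T ∘ Ph Yf)) z' := by
  intro k
  obtain ⟨k1, k2⟩ := G.r3 hz' e'
  obtain ⟨h1, h2, -⟩ := G.H.2.2 (Ph Yf z') k2
  rw [(G.eN hz (by linarith)).eq_of_nhds, (G.eF hz' (by linarith)).eq_of_nhds,
    Function.comp_apply] at k
  have := (G.N.pt z (G.mN hz (by linarith))).2.2.2.2.2.2.2.2.2.2.1 (by rwa [k, h1])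
  rw [k, h2] at this
  change T - z'.1 = _ at this
  linarith

theorem inj (h1 : δ ≤ min δN δF) (h2 : δ ≤ 1) : InjOn (Pg s2 Φ (Tq q' σ T ∘ Ph Yf)) (RD w δ S) := by
  intro z hz z' hz' k
  obtain ⟨a, b⟩ := G.sO h1 h2 hz
  obtain ⟨a', b'⟩ := G.sO h1 h2 hz'
  rcases lt_or_ge z.1 s2 with e | e <;> rcases lt_or_ge z'.1 s2 with e' | e'
  · rw [(G.eN a (by linarith)).eq_of_nhds, (G.eN a' (by linarith)).eq_of_nhds] at k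
    exact G.N.pull.2 (G.mN a (by linarith)) (G.mN a' (by linarith)) k
  · exact (G.mix a a' e e' k).elim
  · exact (G.mix a' a e' e k.symm).elim
  · rw [(G.eF a (by linarith)).eq_of_nhds, (G.eF a' (by linarith)).eq_of_nhds] at k
    exact G.F.inj ⟨mF a (by linarith), b, e⟩ ⟨mF a' (by linarith), b', e'⟩
      (G.H.2.1 (G.r3 a e).2 (G.r3 a' e').2 k)

theorem oRD : IsOpen (RD w δ S) := isOpen_iff_mem_nhds.2 fun z hz =>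
  have k : z.2 ∈ Wk w 0 := wn_eq ▸ hz.1
  ((continuousAt_snd.eventually (wk_open.mem_nhds k)).and
    (((by fun_prop : ContinuousAt (fun z : R4 => z.2.1 - δ) z).eventually_lt continuousAt_fst
      hz.2.1).and (continuousAt_fst.eventually_lt ((((G.F.bt _ (wk_mono G.hw.1.le zero_le_one
        k)).2.1.cont).comp continuousAt_snd).add continuousAt_const) hz.2.2))).mono
    fun _ hy => ⟨wn_eq ▸ hy.1, hy.2⟩

theorem bot (hz : z ∈ (Og w (min δN δF) S)) (e : s2 ≤ z.1) (k : z.1 = S z.2) :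
    (Tq q' σ T ∘ Ph Yf) z = pS P.M P.a q' σ (Yf (S z.2, z.2)).1 (Yf (S z.2, z.2)).2.1 := by
  have u := ((G.F.pt z (mF hz (by linarith))).2 e).2.2.2.1.2 k
  have l0 : q'.l ≠ 0 := by linarith [(abs_le.1 G.l1).1]
  change q'.l * (T - z.1) + fz P.M P.a q' (Yf z).1 = 0 at u
  rw [show (S z.2, z.2) = z from Prod.ext k.symm rfl]
  simp only [pS, Tq, Th, Function.comp_apply, Ph]
  rw [show 0 - fz P.M P.a q' (Yf z).1 / q'.l = T - z.1 by field_simp; linarith]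

theorem glue (hF : FAT) : ∃ δ Ξ, Rays n (C1 + 1) (2 * C0') (2 * C') ε T L w R rr δ (2 * j.T) σe P g
    D Y q' σ J S Ξ (fun x => (Yf (S x, x)).1) fun x => (Yf (S x, x)).2.1 := by
  have c := G.c.trans G.c'
  have cc : C' ≤ 2 * C' := by linarith
  obtain ⟨δ, hδ, ry⟩ := hF n C0' C' ε T L w _ (2 * j.T) σe S (pb (Pg s2 Φ (Tq q' σ T ∘ Ph Yf)) g) (Og w (min δN δF) S) G.c0' c
    (lt_min G.N.par.1 G.d0) ⟨by linarith [G.j0], G.N.par.2.2.2.1.trans G.c3'⟩ G.hσ G.hw G.T1 G.ε1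
    rfl (k2.1 _ _ _ _ _ G.PO) (k2.2.1 _ _ _ _ _ G.PO G.hD.2.2) G.hp G.hb
  have d := ry.par.2.2.2.1
  refine ⟨δ, (Pg s2 Φ (Tq q' σ T ∘ Ph Yf)), ry, ⟨P354YR.pull_mono G.PO G.oRD (fun _ h => (G.sO hδ.2 d h).1) G.hD.1 le_rfl
    fun _ h => G.PO.maps (G.sO hδ.2 d h).1, G.inj hδ.2 d⟩, fun z hz => ?_,
    bot_mono G.F.bot (one_pos.trans_le G.c) (G.c'.trans cc) (by linarith [G.c0, G.c0']) le_rfl
      (by linarith [G.T1])⟩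
  clear ry hF
  obtain ⟨a, b⟩ := G.sO hδ.2 d hz
  have b1 := wk_mono G.hw.1.le zero_le_one b
  obtain ⟨-, s1, s2'⟩ := G.hS b1
  rcases lt_or_ge z.1 s2 with e | e
  · have e' : z.1 < s2 + 1 := by linarith
    obtain ⟨-, n1, n2, n3, n4, n5, n6, n7, -, n8, -⟩ := G.N.pt z (G.mN a e')
    rw [(G.eN a e').eq_of_nhds, (G.eN a e').fderiv_eq]
    exact ⟨n4, n3.1, fun _ => n2, fun _ => ⟨n1, n7⟩, fun k => ⟨(n8 k).1, (n8 k).2.2⟩,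
      fun k => absurd k (e'.trans s2').ne, fun k => ⟨(P354XA.norm_le _).trans
        (num2 n3 (P354YR.rd_nn _) k G.R1 G.c3 G.c3'), (n5.congr (G.eN a e')).mono (G.c3'.trans cc),
        fun v => (n6 v).trans (mul_le_mul_of_nonneg_right (G.c3'.trans cc) (norm_nonneg _))⟩⟩
  · have e' : s2 - 1 < z.1 := by linarith
    obtain ⟨f1, f2, f3, f4, -⟩ := (G.F.pt z (mF a e')).2 e
    obtain ⟨k1, k2⟩ := G.r3 a e
    obtain ⟨h1, -, h3, h4, h5, h6, h7⟩ := G.H.2.2 (Ph Yf z) k2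
    have k3 := G.r1.trans k1
    have M0 := P354YR.M_pos G.hM
    have k4 : 6 * P.M < rd ((Tq q' σ T ∘ Ph Yf) z) := G.r6.trans_le (k1.trans_eq h1.symm)
    rw [(G.eF a e').eq_of_nhds]
    refine ⟨by linarith [G.rr2], ?_, fun k => h3.2 (f3.2 k), fun k => ⟨⟨by linarith [G.rr2, G.rr1],
      G.θ1.trans (Real.one_le_exp (mul_nonneg (P354YR.ka_pos G.hM).le (h5 k3
        (k.eq_or_lt.elim (fun k => (f4.2 k).ge) fun k => (f3.2 k).le)))),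
      k.eq_or_lt.elim (fun k => (h4.2 (f4.2 k)).ge) fun k => (h3.2 (f3.2 k)).le⟩, fun k' =>
      h7 _ G.l2 (cap_of G.c1 f2 ((G.X.jets _ (wk_mono G.hw.1.le one_le_two b1)).2.2.2.2.1 k'))⟩,
      fun k => absurd (G.tp a k) e.not_gt, fun k => ⟨G.bot a e k, h4.2 (f4.2 k)⟩,
      fun k => absurd k k4.not_ge⟩
    exact (num G.l1 (le_trans (by linarith [G.r6]) f1) hz.2.2 d s1 G.N.par.2.2.1 G.T2
      G.N.par.2.1.1 G.T1).trans ((h6 k3).trans_eq (congrArg _ h1.symm))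

end Gi

theorem rays_mono {n : ℕ} {E C0 C ε ε' T L w R rr δ sc σe : ℝ} {P : Pm} {g : Tw} {D : Set R4}
    {Y Φ : R4 → R4} {q' : Par} {σ : Bool} {J : X3 → R4} {S ρ : X3 → ℝ} {η : X3 → Y2}
    (k : Rays n E C0 C ε T L w R rr δ sc σe P g D Y q' σ J S Φ ρ η) (c : 0 < C) (e : ε ≤ ε')
    (t : 0 ≤ T) : Rays n E C0 C ε' T L w R rr δ sc σe P g D Y q' σ J S Φ ρ η :=
  ⟨ray_mono k.ray e t, k.pull, k.pt, bot_mono k.bot c le_rfl le_rfl e t⟩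

theorem ex5 (a b c d e : ℝ) : ∃ x, a ≤ x ∧ b ≤ x ∧ c ≤ x ∧ d ≤ x ∧ e < x :=
  ((eventually_ge_atTop a).and ((eventually_ge_atTop b).and ((eventually_ge_atTop c).and
    ((eventually_ge_atTop d).and (eventually_gt_atTop e))))).exists

/-- **RAYS**. -/
theorem rays (hN : P354SM.NEAR0) (hC : FARC) (hR : FAR) (hH : CHF) (hF : FAT) : RAYS := by
  intro j0 s δ hj ha hM hs hδ
  have hσ : min s 2 ∈ Ioc (1 : ℝ) 2 := ⟨lt_min hs one_lt_two, min_le_right _ _⟩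
  obtain ⟨C1, c1, rN, hN⟩ := hN j0 hj ha hM
  obtain ⟨b, hb, rC, hC⟩ := hC j0.M j0.a s δ (C1 + 2) hM hs hδ
  obtain ⟨B0, b0, hC0⟩ := hC 9
  obtain ⟨w1, hw1, rF, hR⟩ := hR _ hσ (min δ 1) ⟨lt_min hδ one_pos, min_le_right _ _⟩ C1 c1 b hb
    B0 b0
  obtain ⟨εH, eH, rH, -, hH⟩ := hH _ _ hM
  obtain ⟨r2, r21, r22, r23, r24, r25⟩ := ex5 rN rC rF (rH + 1 + C1) (6 * j0.M + 1 + C1)
  obtain ⟨C2, c2, hN⟩ := hN r2 r21
  obtain ⟨C0, c0, hR⟩ := hR r2 r23 C2 c2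
  have two {x y : ℝ} (h : 1 ≤ x) : 1 ≤ 2 * max x y := by linarith [le_max_left x y]
  refine ⟨C1 + 1, 2 * max C2 C0, two c2, min w1 (1 / 10), lt_min hw1 (by norm_num),
    r2 + C1, fun n t t0 r1 rr q1 q2 q3 q4 => ?_⟩
  obtain ⟨C3, c3, εN, eN, hN⟩ := hN n t t0 r1 rr q1 q2 q4
  obtain ⟨B, b1, hC⟩ := hC (n + 5)
  obtain ⟨C, c, hR⟩ := hR n B b1 C3 c3
  refine ⟨2 * max C3 C, two c3, fun ρ hρ ε ε0 => ?_⟩
  obtain ⟨T1, hC0⟩ := hC0 ρ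
  obtain ⟨T2, hC⟩ := hC ρ
  obtain ⟨e, e0, T3, hR⟩ := hR (min ε (1 / 10)) (lt_min ε0 (by norm_num))
  obtain ⟨ε1, e1, hC0⟩ := hC0 e e0
  obtain ⟨ε2, e2, hC⟩ := hC e e0
  refine ⟨min (min εN εH) (min (min ε1 ε2) (min (1 / 100) ((2 * C1)⁻¹ / 20))),
    lt_min (lt_min eN eH) (lt_min (lt_min e1 e2) (lt_min (by norm_num)
      (div_pos (inv_pos.2 (mul_pos two_pos (one_pos.trans_le c1))) (by norm_num)))),
    fun P g D Y q q' β a1 a2 a3 a4 a5 a6 a7 a8 a9 E c' φ b' σ => ?_⟩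
  obtain ⟨⟨u1, u2⟩, ⟨u3, u4⟩, u5, u6⟩ : (P.ε ≤ εN ∧ P.ε ≤ εH) ∧ (P.ε ≤ ε1 ∧ P.ε ≤ ε2) ∧
    P.ε ≤ 1 / 100 ∧ P.ε ≤ (2 * C1)⁻¹ / 20 := by simpa only [le_min_iff] using a9
  obtain ⟨R1, hN⟩ := hN P g D Y q q' β a1 a2 a5 a7.1 (by linarith) (a6.symm ▸ hρ)
    ((Nat.le_succ _).trans a8) u1 E c' φ b' σ
  obtain ⟨T0, t1, t2, t3, t4, t5⟩ := ex5 T1 T2 T3 20 (4 * (C3 + 1))
  refine ⟨max R1 (max (5 / 2 * T0) (6 * j0.M)), fun R hR' w hw => ?_⟩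
  obtain ⟨s1, s2, s3⟩ : R1 ≤ R ∧ 5 / 2 * T0 ≤ R ∧ 6 * j0.M ≤ R := by
    simpa only [ge_iff_le, max_le_iff] using hR'
  have w2 : w ∈ Ioc 0 (1 / 10) := ⟨hw.1, hw.2.trans (min_le_right _ _)⟩
  obtain ⟨T, s2, δN, O, Φ, Y0, N, X⟩ := hN R s1 w w2 (min s 2)
  have v1 {x y z : ℝ} (h : 5 / 2 * x ≤ y) (k : 2 / 5 * y ≤ z) : x ≤ z := by linarith
  have tT : T0 ≤ T := v1 ‹_› N.par.2.1.1
  refine ⟨T, N.par.2.1, fun L l1 l2 l3 => ?_⟩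
  have nq := E.isEnd.par.2
  have fs (k : ℕ) (h : k ≤ n + 13) : L ^ k ≤ T ^ (min s 2 - 1) :=
    (pow_le_pow_right₀ l1 h).trans l3
  have rM : P.r1 ≤ 2 * j0.M := a5.symm ▸ q2.le.trans q3
  have F1 := hC0 P g D Y q q' β σ T L r2 a1 a2 a3 a4 a6 rM a7.2 ((Nat.le_add_left 13 n).trans a8)
    u3 E r22 (t1.trans tT) l1 (fs _ (Nat.le_add_left 13 n))
  have F2 := hC P g D Y q q' β σ T L r2 a1 a2 a3 a4 a6 rM a7.2
    ((Nat.le_add_right (n + 9) 4).trans a8) u4 E r22 (t2.trans tT) l1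
    (fs _ (Nat.le_add_right (n + 9) 4))
  obtain ⟨δF, d0, S, Yf, F⟩ := hR w ⟨hw.1, hw.2.trans (min_le_left _ _)⟩ e ⟨e0, le_rfl⟩ T L s2
    (2 * t) q'.l _ _ _ Y0 (t3.trans tT) l1 l2 ⟨zero_le_three.trans N.par.2.2.1.1, N.par.2.2.1.2⟩
    N.par.2.2.2.2 F1 F2 X
  have H : Cf j0.M j0.a rH q' σ T := hH q' σ T (a1 ▸ a2 ▸ near_mono nq u2)
  clear hN hR hC hC0 hH F1 F2
  rw [← a1, ← a2] at F H hM
  rw [← a1] at r25 q3 s3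
  obtain ⟨δ', Φ', k⟩ := Gi.glue (j := j0.t t) ⟨E.met, N, X, F, H, hM, c1,
    le_max_left C2 C0, le_max_right _ _, c2.trans (le_max_left _ _), c3, le_max_left C3 C, c,
    le_max_right _ _, le_sub_iff_add_le.2 (le_sub_iff_add_le.2 r24),
    lt_sub_iff_add_lt.2 (lt_sub_iff_add_lt.2 r25), a5.symm ▸ q2, q3, a7.2, t4.trans tT,
    t5.le.trans tT, min_le_right _ _, nq.2.2.1.le.trans u5, near_mono nq u6, s3, w2, hσ, d0,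
    zero_le_one.trans l1, t0⟩ hF
  exact ⟨δ', S, Φ', _, _, rays_mono k (one_pos.trans_le (two c3)) (min_le_left _ _)
    ((sq_nonneg L).trans l2)⟩

end Vale.Agent.P354KG
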