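import Vale.Agent.P354SA.Far

/-!
The bounds for the rays depend on germs only, and are monotone in the constants.
-/

open scoped ContDiff
open Set Filter Topology

noncomputable section

namespace Vale.Agent.P354KG

open Vale.Agent.P354n (R4)
open Vale.Agent.P354H (X3)
open Vale.Agent.P354RC (Rm Gm C1 B2)
open Vale.Agent.P354XD (tb)
open Vale.Agent.P354XE (Tw pb Par)
open Vale.Agent.P354YQ (SA JB JD)
open Vale.Agent.P354SA

variable {n : ℕ} {l k c c' C C' C0 C0' r m rc ε ε' T L w δ sc σ E : ℝ} {f f' : R4 → ℝ} {z : R4}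
  {g g' : Tw} {S ρ : X3 → ℝ} {η : X3 → Y2} {x : X3}

theorem pb_map {φ φ' : R4 → R4} (g : Tw) (e : φ =ᶠ[𝓝 z] φ') : pb φ g =ᶠ[𝓝 z] pb φ' g :=
  e.eventuallyEq_nhds.mono fun x hx => by
    funext v w
    simp only [pb, hx.eq_of_nhds, hx.fderiv_eq]

theorem cl_congr (h : Cl n l k f z c) (e : f' =ᶠ[𝓝 z] f) : Cl n l k f' z c := by
  have : Continuous (dl l k z) := by unfold dl; fun_prop
  exact JB.congr h ((this.tendsto' 0 z (by simp [dl, Prod.mk_zero_zero])).eventually e)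

theorem dv_congr (v : R4) (e : f' =ᶠ[𝓝 z] f) : dv v f' =ᶠ[𝓝 z] dv v f :=
  (e.fderiv (𝕜 := ℝ)).mono fun x hx => by simp only [dv, hx]

section
variable (e : g' =ᶠ[𝓝 z] g)
include e

theorem Om_c : Om g' =ᶠ[𝓝 z] Om g := e.mono fun x hx => by simp only [Om, hx]
theorem gm_c (a b : Fin 2) : gm g' a b =ᶠ[𝓝 z] gm g a b := e.mono fun x hx => by simp only [gm, hx]
theorem a1_c (a : Fin 2) : a1 g' a =ᶠ[𝓝 z] a1 g a :=
  e.mono fun x hx => by simp only [a1, gi, dg, gm, hx]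
theorem a0_c : a0 g' =ᶠ[𝓝 z] a0 g := e.mono fun x hx => by simp only [a0, a1, gi, dg, gm, Om, hx]
theorem a2_c (a b : Fin 2) : a2 g' a b =ᶠ[𝓝 z] a2 g a b :=
  e.mono fun x hx => by simp only [a2, gi, dg, gm, Om, hx]
theorem lh_c : lh g' =ᶠ[𝓝 z] lh g :=
  e.mono fun x hx => by simp only [lh, a0, a1, gi, dg, gm, Om, hx]

theorem lie_c (a b : Fin 2) : lie g' (lh g') a b =ᶠ[𝓝 z] lie g (lh g) a b :=
  e.eventuallyEq_nhds.mono fun x hx => by
    have k1 (a b) := (gm_c hx a b).eq_of_nhds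
    have k2 (c a) : dv (ey a) (fun x => yc c (lh g' x)) x = dv (ey a) (fun x => yc c (lh g x)) x :=
      (dv_congr _ ((lh_c hx).mono fun y hy => by simp only [hy])).eq_of_nhds
    simp only [lie, (gm_c hx a b).fderiv_eq, (lh_c hx).eq_of_nhds, k1, k2]

theorem rie_c (i j k o : Fin 4) :
    rie g' (fv (lh g') e0 r) i j k o =ᶠ[𝓝 z] rie g (fv (lh g) e0 r) i j k o :=
  e.eventuallyEq_nhds.mono fun x hx => by
    have k1 : tb g' =ᶠ[𝓝 x] tb g := hx.mono fun y hy => by simp only [tb, hy]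
    simp only [rie, fv, (lh_c hx).eq_of_nhds, Rm, P354RC.dC, Gm, C1, k1.eq_of_nhds, k1.fderiv_eq,
      k1.fderiv.fderiv_eq]

theorem rp_congr (h : Rp n C0 C r m l rc g z) : Rp n C0 C r m l rc g' z := by
  have e0 := e.eq_of_nhds
  refine ⟨e0 ▸ h.null, by simpa only [Om, dg, gm, e0] using h.pos, ⟨cl_congr h.one.1 (Om_c e),
    cl_congr h.one.2.1 (a0_c e), fun a => cl_congr (h.one.2.2.1 a) (a1_c e a),
    fun a b => cl_congr (h.one.2.2.2 a b) (gm_c e a b)⟩, cl_congr h.dO (dv_congr _ (Om_c e)),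
    cl_congr h.d0 (dv_congr _ (a0_c e)), fun a => cl_congr (h.d1 a) (dv_congr _ (a1_c e a)),
    fun a b => cl_congr (h.dg a b) (dv_congr _ (gm_c e a b)),
    fun a b => cl_congr (h.chi a b) (lie_c e a b),
    fun i j k o => cl_congr (h.cur i j k o) (rie_c e i j k o), h.sharp.1.congr (a0_c e),
    fun a => (h.sharp.2.1 a).congr (a1_c e a), fun a b => ⟨(h.sharp.2.2 a b).1.congr (a2_c e a b),
      (a2_c e a b).eq_of_nhds ▸ (h.sharp.2.2 a b).2⟩⟩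
end

theorem rp_mono (h : Rp n C0 C r m l rc g z) (h0 : 0 < C) (h1 : C ≤ C') (h2 : C0 ≤ C0')
    (r0 : 0 ≤ r) (m0 : 0 ≤ m) : Rp n C0' C' r m l rc g z := by
  have i := inv_anti₀ h0 h1
  refine ⟨h.null, ⟨i.trans h.pos.1, le_trans (by gcongr) h.pos.2.1, h.pos.2.2⟩,
    ⟨h.one.1.mono h1, h.one.2.1.mono h1, fun a => (h.one.2.2.1 a).mono h1,
      fun a b => (h.one.2.2.2 a b).mono (by gcongr)⟩, h.dO.mono (by gcongr), h.d0.mono (by gcongr),
    fun a => (h.d1 a).mono (by gcongr), fun a b => (h.dg a b).mono (by gcongr),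
    fun a b => (h.chi a b).mono (by gcongr), fun i j k o => (h.cur i j k o).mono (by gcongr),
    h.sharp.1.mono h2, fun a => (h.sharp.2.1 a).mono h2, fun a b =>
      ⟨(h.sharp.2.2 a b).1.mono h2, (h.sharp.2.2 a b).2.trans (by gcongr)⟩⟩

theorem rz_of (h : Rz n C0 C T L sc σ g z) (e : g' =ᶠ[𝓝 z] g) (h0 : 0 < C) (h1 : C ≤ C')
    (h2 : C0 ≤ C0') : Rz n C0' C' T L sc σ g' z :=
  rp_mono (rp_congr e h) h0 h1 h2 (Real.sqrt_nonneg _) (by unfold mm jb; positivity)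

theorem bt_of (h : Bt n C ε T L S g x) (e : g' =ᶠ[𝓝 (S x, x)] g) (h0 : 0 < C) (h1 : C ≤ C')
    (L0 : 0 ≤ L) : Bt n C' ε T L S g' x := by
  have k : ∀ᶠ y in 𝓝 ((S x, x) : R4), trv S g' y = trv S g y := by
    filter_upwards [lh_c e, a0_c e] with y k1 k2
    simp only [trv, k1, k2]
  have t : Tendsto (fun ξ : X3 => x + (L / T) • ξ) (𝓝 0) (𝓝 x) := by
    have : Continuous fun ξ : X3 => x + (L / T) • ξ := by fun_prop
    simpa using this.tendsto 0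
  refine ⟨⟨h.1.1, h.1.2.1, h.1.2.2.1.mono (by gcongr), (h.1.2.2.2.congr
    (((h.2.1.cont.tendsto.comp t).prodMk_nhds t).eventually k)).mono h1⟩, h.2.1, ?_⟩
  rw [k.self_of_nhds]
  exact ⟨(inv_anti₀ h0 h1).trans h.2.2.1, h.2.2.2.trans h1⟩

theorem bot_mono (h : Bot n E C0 C ε T w ρ η) (h0 : 0 < C) (h1 : C ≤ C') (h2 : C0 ≤ C0')
    (h3 : ε ≤ ε') (T0 : 0 ≤ T) : Bot n E C0' C' ε' T w ρ η := by
  have e : ε * T ≤ ε' * T := by gcongr
  refine ⟨⟨h.sl.sm, fun x hx => ⟨(h.sl.lip x hx).1.trans h2, fun y =>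
    ((h.sl.lip x hx).2 y).trans (by gcongr)⟩, fun x hx x' hx' k =>
    (h.sl.bil x hx x' hx' k).trans (by gcongr), fun x hx => ?_⟩, fun x hx =>
    ⟨(h.bd x hx).1.trans e, (h.bd x hx).2.1, (h.bd x hx).2.2.mono (by gcongr)⟩⟩
  obtain ⟨κ, k1, p, k2, k3⟩ := h.sl.form x hx
  exact ⟨κ, ⟨(inv_anti₀ h0 h1).trans k1.1, k1.2.trans h1⟩, p, k2.trans e, k3⟩

theorem ray_mono {sw : ℝ} (h : Ray n C0 C ε T L w δ sc sw σ S g) (h3 : ε ≤ ε') (T0 : 0 ≤ T) :
    Ray n C0 C ε' T L w δ sc sw σ S g :=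
  have e : ε * T ≤ ε' * T := by gcongr
  { h with bot := fun x hx => ⟨(h.bot x hx).1.trans e, fun a => ((h.bot x hx).2.1 a).trans e,
      (h.bot x hx).2.2⟩ }

theorem near_mono {q : Par} {M a : ℝ} (h : q.Near M a ε) (e : ε ≤ ε') : q.Near M a ε' :=
  ⟨h.1.trans_le e, h.2.1.trans_le e, h.2.2.1.trans_le e, h.2.2.2.1,
    fun i j => (h.2.2.2.2 i j).trans_le e⟩

theorem wk_mono {k k' : ℝ} (w0 : 0 ≤ w) (e : k ≤ k') : Wk w k ⊆ Wk w k' := fun _ h =>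
  ⟨⟨lt_of_le_of_lt (by nlinarith) h.1.1, h.1.2.trans_le (by nlinarith)⟩,
    h.2.trans_le (by linarith)⟩

theorem wn_eq : Wn w = Wk w 0 := by simp [Wn, Wk, Wd]

theorem wk_open : IsOpen (Wk w k) :=
  (isOpen_Ioo.preimage continuous_fst).inter (isOpen_lt continuous_snd.norm continuous_const)

theorem rk_open {a : ℝ} (h : ∀ x ∈ Wk w 1, ContinuousAt S x) : IsOpen (RK w a δ S) :=
  isOpen_iff_mem_nhds.2 fun _ hz =>
    (continuousAt_snd.eventually (wk_open.mem_nhds hz.1)).and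
      ((continuousAt_const.eventually_lt continuousAt_fst hz.2.1).and
        (continuousAt_fst.eventually_lt
          (((h _ hz.1).comp continuousAt_snd).add continuousAt_const) hz.2.2))

/-- The direction stays in the cap. -/
theorem cap_of {C1 : ℝ} {p p' : Y2} (h1 : 1 ≤ C1) (h : ‖p - p'‖ ≤ (100 * C1)⁻¹)
    (k : C1⁻¹ ≤ 1 - p'.1 ^ 2 - p'.2 ^ 2) : (2 * C1)⁻¹ ≤ 1 - p.1 ^ 2 - p.2 ^ 2 := by
  have i0 : 0 < C1⁻¹ := by positivity
  have i1 : C1⁻¹ ≤ 1 := inv_le_one_of_one_le₀ h1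
  rw [mul_inv] at h ⊢
  have a1 := abs_le.1 ((norm_fst_le (p - p')).trans h)
  have a2 := abs_le.1 ((norm_snd_le (p - p')).trans h)
  have b1 := abs_le.1 (show |p'.1| ≤ 1 from abs_le_of_sq_le_sq (by nlinarith [sq_nonneg p'.2])
    zero_le_one)
  have b2 := abs_le.1 (show |p'.2| ≤ 1 from abs_le_of_sq_le_sq (by nlinarith [sq_nonneg p'.1])
    zero_le_one)
  simp only [Prod.fst_sub, Prod.snd_sub] at a1 a2
  have key {u v : ℝ} (a : -(100⁻¹ * C1⁻¹) ≤ u - v ∧ u - v ≤ 100⁻¹ * C1⁻¹) (b : -1 ≤ v ∧ v ≤ 1) :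
      u ^ 2 ≤ v ^ 2 + C1⁻¹ / 10 := by
    have := abs_le.2 a
    have e : |u + v| ≤ 3 := abs_le.2 ⟨by linarith [a.1, b.1], by linarith [a.2, b.2]⟩
    have := (le_abs_self _).trans ((abs_mul (u - v) (u + v)).trans_le
      (mul_le_mul this e (abs_nonneg _) (by positivity)))
    linarith
  linarith [key a1 b1, key a2 b2]

end Vale.Agent.P354KG
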